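import Vale.Agent.P245.Cube.Defs

/-! # Integration by parts for the weighted Laplacian, and Bochner's formula -/

namespace Vale.P245.Cube.Lich

open MeasureTheory Vale.P254.Skew Filter Topology
open scoped RealInnerProductSpace

variable {n : ℕ} {W : E n → ℝ} {a b : ℝ}

/-- The coordinate derivative. -/
noncomputable def dd (i : Fin n) (g : E n → ℝ) : E n → ℝ := fun x => fderiv ℝ g x (bv i)

/-- The weighted Laplacian. -/
noncomputable def Lop (W : E n → ℝ) (u : E n → ℝ) : E n → ℝ :=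
  fun x => ∑ j, (dd j (dd j u) x - dd j W x * dd j u x)

/-- The squared gradient. -/
noncomputable def gsq (f : E n → ℝ) : E n → ℝ := fun x => ∑ i, dd i f x ^ 2

theorem contDiff_dd {g : E n → ℝ} {m : ℕ} (hg : ContDiff ℝ (m + 1 : ℕ) g) (i : Fin n) :
    ContDiff ℝ m (dd i g) :=
  (hg.fderiv_right (m := (m : WithTop ℕ∞)) (by norm_cast)).clm_apply contDiff_const

theorem contDiff_dd₁ {g : E n → ℝ} (hg : ContDiff ℝ 2 g) (i : Fin n) : ContDiff ℝ 1 (dd i g) :=
  contDiff_dd (m := 1) hg i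

theorem contDiff_dd₂ {g : E n → ℝ} (hg : ContDiff ℝ 3 g) (i : Fin n) : ContDiff ℝ 2 (dd i g) :=
  contDiff_dd (m := 2) hg i

theorem continuous_dd {g : E n → ℝ} (hg : ContDiff ℝ 1 g) (i : Fin n) : Continuous (dd i g) :=
  (hg.continuous_fderiv one_ne_zero).clm_apply continuous_const

theorem hasCompactSupport_dd {g : E n → ℝ} (hg : HasCompactSupport g) (i : Fin n) :
    HasCompactSupport (dd i g) :=
  hg.fderiv_apply ℝ (bv i)

theorem tame_of_hasCompactSupport {g : E n → ℝ} (hc : Continuous g) (hs : HasCompactSupport g) :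
    Tame g := by
  obtain ⟨C, hC⟩ := hc.bounded_above_of_compact_support hs
  exact Tame.bounded hc hC

theorem dd_comm {u : E n → ℝ} (hu : ContDiff ℝ 2 u) (i j : Fin n) :
    dd i (dd j u) = dd j (dd i u) := by
  funext x
  have e : ∀ k l : Fin n, dd k (dd l u) x = fderiv ℝ (fderiv ℝ u) x (bv k) (bv l) := fun k l => by
    show fderiv ℝ (fun y => fderiv ℝ u y (bv l)) x (bv k) = _
    rw [fderiv_clm_apply ((hu.fderiv_right (m := 1) (by norm_num)).differentiable one_ne_zero x)
      (differentiableAt_const _)]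
    simp
  rw [e, e]
  exact (hu.contDiffAt.isSymmSndFDerivAt (by simp)).eq _ _

theorem dd_dd_eq_D2 (h : Pinched W a b) (i j : Fin n) (x : E n) :
    dd i (dd j W) x = D2 W x (bv i) (bv j) :=
  h.fderiv_fderiv_apply x (bv i) (bv j)

theorem dd_mul {f g : E n → ℝ} (hf : ContDiff ℝ 1 f) (hg : ContDiff ℝ 1 g) (i : Fin n) :
    dd i (fun x => f x * g x) = fun x => dd i f x * g x + f x * dd i g x := by
  funext x
  show fderiv ℝ (fun x => f x * g x) x (bv i) = _
  rw [fderiv_fun_mul (hf.differentiable one_ne_zero x) (hg.differentiable one_ne_zero x)]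
  simp [dd]
  ring

theorem continuous_Lop (h : Pinched W a b) {u : E n → ℝ} (hu : ContDiff ℝ 2 u) :
    Continuous (Lop W u) :=
  continuous_finsetSum _ fun j _ => (continuous_dd (contDiff_dd₁ hu j) j).sub
    ((continuous_dd (h.smooth.of_le (by norm_num)) j).mul (continuous_dd (hu.of_le (by norm_num)) j))

theorem contDiff_Lop (h : Pinched W a b) {u : E n → ℝ} (hu : ContDiff ℝ 3 u) :
    ContDiff ℝ 1 (Lop W u) :=
  ContDiff.sum fun j _ => (contDiff_dd₁ (contDiff_dd₂ hu j) j).sub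
    ((contDiff_dd₁ h.smooth j).mul ((contDiff_dd₂ hu j).of_le (by norm_num)))

theorem hasCompactSupport_Lop {u : E n → ℝ} (hs : HasCompactSupport u) :
    HasCompactSupport (Lop W u) := by
  refine HasCompactSupport.intro (hs : IsCompact (tsupport u)) fun x hx => ?_
  have h0 : ∀ {g : E n → ℝ}, x ∉ tsupport g → g x = 0 := fun hg => image_eq_zero_of_notMem_tsupport hg
  have h1 : ∀ (i : Fin n) {g : E n → ℝ}, x ∉ tsupport g → x ∉ tsupport (dd i g) := fun i g hg hx' =>
    hg (tsupport_fderiv_apply_subset ℝ (bv i) hx')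
  refine Finset.sum_eq_zero fun j _ => ?_
  rw [h0 (h1 j hx), h0 (h1 j (h1 j hx))]
  simp

theorem tame_Lop (h : Pinched W a b) {u : E n → ℝ} (hu : ContDiff ℝ 2 u)
    (hs : HasCompactSupport u) : Tame (Lop W u) :=
  tame_of_hasCompactSupport (continuous_Lop h hu) (hasCompactSupport_Lop hs)

theorem tame_dd_of_supp {u : E n → ℝ} (hu : ContDiff ℝ 1 u) (hs : HasCompactSupport u)
    (i : Fin n) : Tame (dd i u) :=
  tame_of_hasCompactSupport (continuous_dd hu i) (hasCompactSupport_dd hs i)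

/-- Integration by parts for the weighted Laplacian. -/
theorem ibp_Lop (h : Pinched W a b) {g u : E n → ℝ} (hg : ContDiff ℝ 1 g) (hgt : Tame g)
    (hgd : ∀ i, Tame (dd i g)) (hu : ContDiff ℝ 2 u) (hs : HasCompactSupport u) :
    ex W (fun x => g x * Lop W u x) = -ex W (fun x => ∑ i, dd i g x * dd i u x) := by
  have t1 : ∀ i, Tame (dd i u) := fun i => tame_dd_of_supp (hu.of_le (by norm_num)) hs i
  have t2 : ∀ i, Tame (dd i (dd i u)) := fun i =>
    tame_dd_of_supp (contDiff_dd₁ hu i) (hasCompactSupport_dd hs i) i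
  have key : ∀ i, ex W (fun x => g x * dd i u x * dd i W x)
      = ex W (fun x => dd i g x * dd i u x) + ex W (fun x => g x * dd i (dd i u) x) := fun i => by
    rw [← h.ex_add ((hgd i).mul (t1 i)) (hgt.mul (t2 i))]
    refine (h.ibp (hg.mul (contDiff_dd₁ hu i)) (hgt.mul (t1 i)) (bv i) ?_).trans
      (ex_congr fun x => congrFun (dd_mul hg (contDiff_dd₁ hu i) i) x)
    exact (congrArg Tame (dd_mul hg (contDiff_dd₁ hu i) i)).mpr
      (((hgd i).mul (t1 i)).add (hgt.mul (t2 i)))
  have e : ∀ x, g x * Lop W u x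
      = ∑ i, (g x * dd i (dd i u) x - g x * dd i u x * dd i W x) := fun x => by
    simp only [Lop, Finset.mul_sum]
    exact Finset.sum_congr rfl fun i _ => by ring
  have tW : ∀ i, Tame fun x => g x * dd i u x * dd i W x := fun i =>
    (hgt.mul (t1 i)).mul (h.tame_fderiv_apply (bv i))
  rw [ex_congr e, h.ex_sum _ fun i _ => (hgt.mul (t2 i)).sub (tW i),
    h.ex_sum _ fun i _ => (hgd i).mul (t1 i), ← Finset.sum_neg_distrib]
  refine Finset.sum_congr rfl fun i _ => ?_
  rw [h.ex_sub (hgt.mul (t2 i)) (tW i), key i]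
  ring

/-- The derivative of the weighted Laplacian. -/
theorem dd_Lop (h : Pinched W a b) {u : E n → ℝ} (hu : ContDiff ℝ 3 u) (i : Fin n) (x : E n) :
    dd i (Lop W u) x = Lop W (dd i u) x - ∑ j, D2 W x (bv i) (bv j) * dd j u x := by
  have c1 : ∀ j, ContDiff ℝ 1 (dd j (dd j u)) := fun j => contDiff_dd₁ (contDiff_dd₂ hu j) j
  have c2 : ∀ j, ContDiff ℝ 1 fun y => dd j W y * dd j u y := fun j =>
    (contDiff_dd₁ h.smooth j).mul ((contDiff_dd₂ hu j).of_le (by norm_num))
  show fderiv ℝ (fun y => ∑ j, (dd j (dd j u) y - dd j W y * dd j u y)) x (bv i) = _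
  rw [fderiv_fun_sum fun j _ =>
      ((c1 j).differentiable one_ne_zero x).fun_sub ((c2 j).differentiable one_ne_zero x),
    ContinuousLinearMap.sum_apply]
  simp only [Lop, ← Finset.sum_sub_distrib]
  refine Finset.sum_congr rfl fun j _ => ?_
  rw [fderiv_fun_sub ((c1 j).differentiable one_ne_zero x) ((c2 j).differentiable one_ne_zero x),
    ContinuousLinearMap.sub_apply]
  have e3 : dd i (dd j (dd j u)) x = dd j (dd j (dd i u)) x := by
    rw [dd_comm (contDiff_dd₂ hu j) i j, dd_comm (hu.of_le (by norm_num)) i j]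
  have e4 := congrFun (dd_mul (contDiff_dd₁ h.smooth j) ((contDiff_dd₂ hu j).of_le (by norm_num)) i) x
  rw [dd_comm (hu.of_le (by norm_num)) i j, dd_dd_eq_D2 h] at e4
  simp only [dd] at e3 e4 ⊢
  rw [e3, e4]
  ring

/-- Bochner's formula, as an inequality. -/
theorem bochner (h : Pinched W a b) {u : E n → ℝ} (hu : ContDiff ℝ 3 u)
    (hs : HasCompactSupport u) :
    ex W (fun x => ∑ i, gsq (dd i u) x) + a * ex W (gsq u) ≤ ex W (fun x => Lop W u x ^ 2) := by
  have hu2 : ContDiff ℝ 2 u := hu.of_le (by norm_num)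
  have t1 : ∀ i, Tame (dd i u) := fun i => tame_dd_of_supp (hu.of_le (by norm_num)) hs i
  have tL : ∀ i, Tame (Lop W (dd i u)) := fun i =>
    tame_Lop h (contDiff_dd₂ hu i) (hasCompactSupport_dd hs i)
  have tH : ∀ i, Tame (gsq (dd i u)) := fun i => Tame.sum _ fun j _ =>
    (tame_dd_of_supp (contDiff_dd₁ hu2 i) (hasCompactSupport_dd hs i) j).pow 2
  have tP : ∀ i, Tame fun x => (∑ j, D2 W x (bv i) (bv j) * dd j u x) * dd i u x := fun i =>
    (Tame.sum _ fun j _ => (h.tame_D2 (bv i) (bv j)).mul (t1 j)).mul (t1 i)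
  have hL1 := contDiff_Lop h hu
  have hLs := hasCompactSupport_Lop (W := W) hs
  have e0 := ibp_Lop h hL1 (tame_Lop h hu2 hs) (tame_dd_of_supp hL1 hLs) hu2 hs
  have e1 : ∀ x, ∑ i, dd i (Lop W u) x * dd i u x
      = ∑ i, (dd i u x * Lop W (dd i u) x
        - (∑ j, D2 W x (bv i) (bv j) * dd j u x) * dd i u x) := fun x =>
    Finset.sum_congr rfl fun i _ => by rw [dd_Lop h hu]; ring
  have e2 : ∀ i, ex W (fun x => dd i u x * Lop W (dd i u) x) = -ex W (gsq (dd i u)) := fun i => by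
    rw [ibp_Lop h ((contDiff_dd₂ hu i).of_le (by norm_num)) (t1 i)
      (tame_dd_of_supp ((contDiff_dd₂ hu i).of_le (by norm_num)) (hasCompactSupport_dd hs i))
      (contDiff_dd₂ hu i) (hasCompactSupport_dd hs i)]
    exact congrArg Neg.neg (ex_congr fun x => Finset.sum_congr rfl fun j _ => (sq _).symm)
  rw [ex_congr e1, h.ex_sum _ fun i _ => ((t1 i).mul (tL i)).sub (tP i)] at e0
  simp only [fun i => h.ex_sub ((t1 i).mul (tL i)) (tP i), e2, Finset.sum_sub_distrib,
    Finset.sum_neg_distrib, neg_sub, sub_neg_eq_add, ← h.ex_sum _ fun i _ => tH i,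
    ← h.ex_sum _ fun i _ => tP i] at e0
  rw [ex_congr fun x => sq (Lop W u x), e0, add_comm]
  refine add_le_add ?_ le_rfl
  rw [← ex_const_mul]
  refine h.ex_mono ((Tame.sum _ fun i _ => (t1 i).pow 2).const_mul _)
    (Tame.sum _ fun i _ => tP i) fun x => ?_
  have key := h.lower x (∑ i, dd i u x • bv i)
  have en : ‖∑ i, dd i u x • bv (k := n) i‖ ^ 2 = gsq u x := by
    rw [EuclideanSpace.norm_sq_eq]
    simp [gsq, bv, Pi.single_apply]
  have ed : D2 W x (∑ i, dd i u x • bv i) (∑ i, dd i u x • bv i)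
      = ∑ i, (∑ j, D2 W x (bv i) (bv j) * dd j u x) * dd i u x := by
    simp only [D2, map_sum, map_smul, FunLike.coe_sum, Finset.sum_apply,
      smul_apply, smul_eq_mul, Finset.mul_sum, Finset.sum_mul]
    rw [Finset.sum_comm]
    exact Finset.sum_congr rfl fun i _ => Finset.sum_congr rfl fun j _ => by ring
  rw [en, ed] at key
  exact key

end Vale.P245.Cube.Lich
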