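import Vale.Agent.P245.Cube.Lich.Calc
import Vale.Agent.P254.Skew.Facts

/-! # The range of the weighted Laplacian is dense among centred functions -/

namespace Vale.P245.Cube.Lich

open MeasureTheory Vale.P254.Skew Filter Topology
open scoped RealInnerProductSpace

variable {n : ℕ} {W : E n → ℝ} {a b : ℝ}

/-- The correlation of `q` with the translates of `g`. -/
noncomputable def K (g q : E n → ℝ) (x : E n) : ℝ := ∫ y, q y * g (y - x)

theorem integrable_K {g q : E n → ℝ} (hg : Continuous g) (hs : HasCompactSupport g)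
    (hq : Integrable q) (x : E n) : Integrable fun y => q y * g (y - x) := by
  obtain ⟨C, hC⟩ := hg.bounded_above_of_compact_support hs
  exact hq.mul_bdd (hg.comp (continuous_id.sub continuous_const)).aestronglyMeasurable
    (Eventually.of_forall fun y => hC _)

theorem continuous_K {g q : E n → ℝ} (hg : Continuous g) (hs : HasCompactSupport g)
    (hq : Integrable q) : Continuous (K g q) := by
  obtain ⟨C, hC⟩ := hg.bounded_above_of_compact_support hs
  exact continuous_of_dominated (fun x => (integrable_K hg hs hq x).1)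
    (fun x => Eventually.of_forall fun y => (norm_mul_le _ _).trans
      (mul_le_mul_of_nonneg_left (hC (y - x)) (norm_nonneg _)))
    (hq.norm.mul_const C)
    (Eventually.of_forall fun y => continuous_const.mul (hg.comp (continuous_const.sub continuous_id)))

theorem hasFDerivAt_K {g q : E n → ℝ} (hg : ContDiff ℝ 1 g) (hs : HasCompactSupport g)
    (hq : Integrable q) (x : E n) :
    HasFDerivAt (K g q) (∫ y, q y • -fderiv ℝ g (y - x)) x := by
  have hc := hg.continuous_fderiv one_ne_zero
  obtain ⟨C, hC⟩ := hc.bounded_above_of_compact_support (hs.fderiv ℝ)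
  refine hasFDerivAt_integral_of_dominated_of_fderiv_le
    (F' := fun z y => q y • -fderiv ℝ g (y - z)) (bound := fun y => ‖q y‖ * C) univ_mem
    (Eventually.of_forall fun z => (integrable_K hg.continuous hs hq z).1)
    (integrable_K hg.continuous hs hq x)
    (hq.1.smul (hc.comp (continuous_id.sub continuous_const)).neg.aestronglyMeasurable)
    (Eventually.of_forall fun y z _ => ?_) (hq.norm.mul_const C)
    (Eventually.of_forall fun y z _ => ?_)
  · rw [norm_smul, norm_neg]
    exact mul_le_mul_of_nonneg_left (hC _) (norm_nonneg _)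
  · have h1 := (hg.differentiable one_ne_zero (y - z)).hasFDerivAt.comp z
      ((hasFDerivAt_id z).const_sub y)
    simpa [Function.comp_def] using h1.const_mul (q y)

theorem contDiff_K {g q : E n → ℝ} (hg : ContDiff ℝ 1 g) (hs : HasCompactSupport g)
    (hq : Integrable q) : ContDiff ℝ 1 (K g q) := by
  refine contDiff_one_iff_fderiv.2 ⟨fun x => (hasFDerivAt_K hg hs hq x).differentiableAt, ?_⟩
  rw [funext fun x => (hasFDerivAt_K hg hs hq x).fderiv]
  have hc := hg.continuous_fderiv one_ne_zero
  obtain ⟨C, hC⟩ := hc.bounded_above_of_compact_support (hs.fderiv ℝ)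
  refine continuous_of_dominated
    (fun x => hq.1.smul (hc.comp (continuous_id.sub continuous_const)).neg.aestronglyMeasurable)
    (fun x => Eventually.of_forall fun y => ?_) (hq.norm.mul_const C)
    (Eventually.of_forall fun y => by fun_prop)
  rw [norm_smul, norm_neg]
  exact mul_le_mul_of_nonneg_left (hC _) (norm_nonneg _)

theorem dd_K {g q : E n → ℝ} (hg : ContDiff ℝ 1 g) (hs : HasCompactSupport g)
    (hq : Integrable q) (i : Fin n) (x : E n) : dd i (K g q) x = -K (dd i g) q x := by
  have hc := hg.continuous_fderiv one_ne_zero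
  obtain ⟨C, hC⟩ := hc.bounded_above_of_compact_support (hs.fderiv ℝ)
  have hI : Integrable fun y => q y • -fderiv ℝ g (y - x) :=
    (hq.norm.mul_const C).mono'
      (hq.1.smul (hc.comp (continuous_id.sub continuous_const)).neg.aestronglyMeasurable)
      (Eventually.of_forall fun y => by
        rw [norm_smul, norm_neg]
        exact mul_le_mul_of_nonneg_left (hC _) (norm_nonneg _))
  show fderiv ℝ (K g q) x (bv i) = _
  rw [(hasFDerivAt_K hg hs hq x).fderiv, ContinuousLinearMap.integral_apply hI, K, ← integral_neg]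
  simp [dd]

/-- Jensen's inequality for the average against a translate of a probability density. -/
theorem sq_K_le {g q : E n → ℝ} (hg : Continuous g) (hs : HasCompactSupport g)
    (h0 : ∀ z, 0 ≤ g z) (h1 : ∫ z, g z = 1) (hq : Integrable q)
    (hq2 : Integrable fun y => q y ^ 2) (x : E n) :
    K g q x ^ 2 ≤ K g (fun y => q y ^ 2) x := by
  set m := K g q x with hm
  have i1 := integrable_K hg hs hq x
  have i2 := integrable_K hg hs hq2 x
  have i3 : Integrable fun y => g (y - x) :=
    (hg.integrable_of_hasCompactSupport hs).comp_sub_right x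
  have h := integral_nonneg (μ := volume) (f := fun y =>
    q y ^ 2 * g (y - x) - (2 * m * (q y * g (y - x)) - m ^ 2 * g (y - x))) fun y => by
      show (0 : ℝ) ≤ _
      nlinarith [mul_nonneg (h0 (y - x)) (sq_nonneg (q y - m))]
  rw [integral_sub (f := fun y => q y ^ 2 * g (y - x)) i2
      (g := fun y => 2 * m * (q y * g (y - x)) - m ^ 2 * g (y - x))
      ((i1.const_mul (2 * m)).sub (i3.const_mul (m ^ 2))),
    integral_sub (f := fun y => 2 * m * (q y * g (y - x))) (i1.const_mul _)
      (g := fun y => m ^ 2 * g (y - x)) (i3.const_mul _),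
    integral_const_mul, integral_const_mul, integral_sub_right_eq_self g x, h1] at h
  have e : ∫ y, q y * g (y - x) = m := rfl
  rw [e] at h
  show m ^ 2 ≤ ∫ y, q y ^ 2 * g (y - x)
  nlinarith

/-- The mollifiers. -/
noncomputable def mol (n m : ℕ) : ContDiffBump (0 : E n) :=
  ⟨1 / (2 * (m + 1)), 1 / (m + 1), by positivity, by
    rw [one_div_lt_one_div (by positivity) (by positivity)]
    linarith [Nat.cast_nonneg (α := ℝ) m]⟩

theorem tendsto_K {ψ q : E n → ℝ} (hψ : Continuous ψ) (hψs : HasCompactSupport ψ)
    (hq : Integrable q) :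
    Tendsto (fun m => ∫ x, ψ x * K ((mol n m).normed volume) q x) atTop
      (𝓝 (∫ y, q y * ψ y)) := by
  obtain ⟨M, hM⟩ := hψ.bounded_above_of_compact_support hψs
  have e : ∀ m, ∫ x, ψ x * K ((mol n m).normed volume) q x
      = ∫ y, q y * ∫ x, (mol n m).normed volume (y - x) * ψ x := fun m => by
    set g := (mol n m).normed volume
    have hg : Continuous g := (mol n m).continuous_normed
    obtain ⟨C, hC⟩ := hg.bounded_above_of_compact_support (mol n m).hasCompactSupport_normed
    have hI : Integrable (fun z : E n × E n => ψ z.1 * q z.2 * g (z.2 - z.1))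
        (volume.prod volume) :=
      ((hψ.integrable_of_hasCompactSupport hψs).mul_prod hq).mul_bdd
        (hg.comp (continuous_snd.sub continuous_fst)).aestronglyMeasurable
        (Eventually.of_forall fun z => hC _)
    simp only [K, ← integral_const_mul]
    calc ∫ x, ∫ y, ψ x * (q y * g (y - x)) = ∫ x, ∫ y, ψ x * q y * g (y - x) := by
          simp only [mul_assoc]
      _ = ∫ y, ∫ x, ψ x * q y * g (y - x) := integral_integral_swap hI
      _ = _ := by congr 1; ext y; congr 1; ext x; ring
  simp only [e]
  have h0 : ∀ m z, 0 ≤ (mol n m).normed volume z := fun m z => (mol n m).nonneg_normed z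
  have hmeas : ∀ m, Continuous fun y => ∫ x, (mol n m).normed volume (y - x) * ψ x := fun m => by
    have hg : Continuous ((mol n m).normed volume) := (mol n m).continuous_normed
    obtain ⟨C, hC⟩ := hg.bounded_above_of_compact_support (mol n m).hasCompactSupport_normed
    refine continuous_of_dominated
      (fun y => ((hg.comp (continuous_const.sub continuous_id)).mul hψ).aestronglyMeasurable)
      (fun y => Eventually.of_forall fun x => (norm_mul_le _ _).trans
        (mul_le_mul_of_nonneg_right (hC _) (norm_nonneg _)))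
      ((hψ.integrable_of_hasCompactSupport hψs).norm.const_mul C)
      (Eventually.of_forall fun x => (hg.comp (continuous_id.sub continuous_const)).mul
        continuous_const)
  refine tendsto_integral_of_dominated_convergence (fun y => ‖q y‖ * M)
    (fun m => hq.1.mul (hmeas m).aestronglyMeasurable) (hq.norm.mul_const M)
    (fun m => Eventually.of_forall fun y => ?_) (Eventually.of_forall fun y => ?_)
  · rw [norm_mul]
    refine mul_le_mul_of_nonneg_left ((norm_integral_le_integral_norm _).trans ?_) (norm_nonneg _)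
    have hg : Integrable fun x => (mol n m).normed volume (y - x) :=
      (mol n m).integrable_normed.comp_sub_left y
    refine (integral_mono_of_nonneg (Eventually.of_forall fun x => norm_nonneg _)
      (hg.mul_const M) (Eventually.of_forall fun x => ?_)).trans_eq ?_
    · simp only [norm_mul, Real.norm_of_nonneg (h0 m _)]
      exact mul_le_mul_of_nonneg_left (hM x) (h0 m _)
    · rw [integral_mul_const, integral_sub_left_eq_self _ volume y, (mol n m).integral_normed,
        one_mul]
  · refine Tendsto.const_mul _ ?_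
    have h := ContDiffBump.convolution_tendsto_right_of_continuous (μ := (volume : Measure (E n)))
      (φ := mol n) (l := atTop) tendsto_one_div_add_atTop_nhds_zero_nat hψ y
    simpa [convolution_eq_swap] using h

theorem exp_neg_bounded (h : Pinched W a b) : ∃ C, ∀ x, Real.exp (-W x) ≤ C := by
  obtain ⟨C, hC⟩ := h.gauss_bound (Tame.const (1 : ℝ)) 0
  refine ⟨|C|, fun x => ?_⟩
  have := hC x
  simp only [zero_mul, add_zero, norm_one, mul_one] at this
  refine this.trans ((mul_le_mul_of_nonneg_right (le_abs_self C) (Real.exp_pos _).le).trans ?_)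
  exact mul_le_of_le_one_right (abs_nonneg C) (Real.exp_le_one_iff.2
    (by nlinarith [h.pos, sq_nonneg ‖x‖]))

theorem memLp_half (h : Pinched W a b) {g : E n → ℝ} (hg : Tame g) :
    MemLp (fun x => g x * Real.exp (-W x / 2)) 2 volume := by
  refine (memLp_two_iff_integrable_sq
    (hg.1.mul (Real.continuous_exp.comp (h.continuous.neg.div_const 2))).aestronglyMeasurable).2 ?_
  refine (h.integrable (hg.pow 2)).congr (Eventually.of_forall fun x => ?_)
  show Real.exp (-W x) * g x ^ 2 = (g x * Real.exp (-W x / 2)) ^ 2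
  rw [mul_pow, sq (Real.exp _), ← Real.exp_add]
  ring_nf

theorem integrable_weight (h : Pinched W a b) {k : E n → ℝ} (hk : MemLp k 2 volume)
    {g : E n → ℝ} (hg : Tame g) :
    Integrable fun x => k x * Real.exp (-W x / 2) * g x := by
  refine (hk.integrable_mul (memLp_half h hg)).congr (Eventually.of_forall fun x => ?_)
  show k x * (g x * Real.exp (-W x / 2)) = _
  ring

theorem integrable_weight_sq (h : Pinched W a b) {k : E n → ℝ} (hk : MemLp k 2 volume) :
    Integrable fun x => (k x * Real.exp (-W x / 2)) ^ 2 := by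
  obtain ⟨C, hC⟩ := exp_neg_bounded h
  refine (hk.integrable_sq.mul_bdd (c := C)
    (Real.continuous_exp.comp h.continuous.neg).aestronglyMeasurable
    (Eventually.of_forall fun x => by
      simpa [Real.norm_of_nonneg (Real.exp_pos _).le] using hC x)).congr
    (Eventually.of_forall fun x => ?_)
  show k x ^ 2 * Real.exp (-W x) = (k x * Real.exp (-W x / 2)) ^ 2
  rw [mul_pow, sq (Real.exp _), ← Real.exp_add]
  ring_nf

/-- The energy bound at a fixed scale of mollification. -/
theorem test_bound (h : Pinched W a b) {φ χ p f : E n → ℝ} {ε : ℝ}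
    (hφ : ContDiff ℝ 3 φ) (hφs : HasCompactSupport φ) (h0 : ∀ z, 0 ≤ φ z) (h1 : ∫ z, φ z = 1)
    (hε : ∀ z, φ z ≠ 0 → ‖z‖ ≤ ε) (hχ : ContDiff ℝ 1 χ) (hχs : HasCompactSupport χ)
    (hp : Integrable p) (hpW : ∀ i, Integrable fun y => dd i W y * p y)
    (hp2 : Integrable fun y => p y ^ 2)
    (horth : ∀ u : E n → ℝ, ContDiff ℝ 3 u → HasCompactSupport u →
      ∫ y, p y * Lop W u y = 0) (hft : Tame f) :
    ((∫ x, χ x * f x * K φ p x) - ex W f * ∫ x, χ x * K φ p x) ^ 2
      ≤ Zc W * (ex W (fun x => f x ^ 2) - ex W f ^ 2) / a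
        * (22 * (∫ x, gsq χ x * Real.exp (W x) * K φ (fun y => p y ^ 2) x)
          + 8 * (n * (b * ε) ^ 2) * ∫ x, χ x ^ 2 * Real.exp (W x) * K φ (fun y => p y ^ 2) x) := by
  have hz := h.zc_pos
  have hφ1 : ContDiff ℝ 1 φ := hφ.of_le (by norm_num)
  have hφd : ∀ i, ContDiff ℝ 1 (dd i φ) := fun i => contDiff_dd₁ (hφ.of_le (by norm_num)) i
  have hW1 : ContDiff ℝ 1 W := h.smooth.of_le (by norm_num)
  set P := K φ p with hP
  have cP : ContDiff ℝ 1 P := contDiff_K hφ1 hφs hp
  let F : Fin n → E n → ℝ := fun i x => -K (dd i φ) p x + K φ (fun y => dd i W y * p y) x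
  have cF : ∀ i, ContDiff ℝ 1 (F i) := fun i =>
    (contDiff_K (hφd i) (hasCompactSupport_dd hφs i) hp).neg.add (contDiff_K hφ1 hφs (hpW i))
  have hdiv : ∀ x, ∑ i, dd i (F i) x = 0 := fun x => by
    have hu : ContDiff ℝ 3 fun y => φ (y - x) := hφ.comp (contDiff_id.sub contDiff_const)
    have hus : HasCompactSupport fun y => φ (y - x) :=
      hφs.comp_homeomorph (Homeomorph.subRight x)
    have d1 : ∀ i, dd i (fun y => φ (y - x)) = fun y => dd i φ (y - x) := fun i => by
      funext y
      simp [dd, fderiv_comp_sub]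
    have d2 : ∀ i, dd i (fun y => dd i φ (y - x)) = fun y => dd i (dd i φ) (y - x) := fun i => by
      funext y
      show fderiv ℝ (fun y => dd i φ (y - x)) y (bv i) = _
      rw [fderiv_comp_sub]
      rfl
    have e1 : ∀ i, dd i (F i) x
        = K (dd i (dd i φ)) p x - K (dd i φ) (fun y => dd i W y * p y) x := fun i => by
      have g1 := ((contDiff_K (hφd i) (hasCompactSupport_dd hφs i) hp).differentiable one_ne_zero
        x).fun_neg
      have g2 := (contDiff_K hφ1 hφs (hpW i)).differentiable one_ne_zero x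
      show fderiv ℝ (fun x => -K (dd i φ) p x + K φ (fun y => dd i W y * p y) x) x (bv i) = _
      rw [fderiv_fun_add g1 g2, add_apply, fderiv_fun_neg, neg_apply]
      have k1 := dd_K (hφd i) (hasCompactSupport_dd hφs i) hp i x
      have k2 := dd_K hφ1 hφs (hpW i) i x
      simp only [dd] at k1 k2 ⊢
      rw [k1, k2]
      ring
    have i1 : ∀ i, Integrable fun y => p y * dd i (dd i φ) (y - x) := fun i =>
      integrable_K (continuous_dd (hφd i) i)
        (hasCompactSupport_dd (hasCompactSupport_dd hφs i) i) hp x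
    have i2 : ∀ i, Integrable fun y => dd i W y * p y * dd i φ (y - x) := fun i =>
      integrable_K (continuous_dd hφ1 i) (hasCompactSupport_dd hφs i) (hpW i) x
    rw [Finset.sum_congr rfl fun i _ => e1 i, ← horth _ hu hus]
    simp only [K, Lop, d1, d2, Finset.mul_sum]
    rw [integral_finsetSum]
    · refine Finset.sum_congr rfl fun i _ => ?_
      rw [← integral_sub (i1 i) (i2 i)]
      congr 1
      ext y
      ring
    · intro i _
      refine ((i1 i).sub (i2 i)).congr (Eventually.of_forall fun y => ?_)
      show p y * _ - _ = _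
      ring
  let H : E n → ℝ := fun x => P x * Real.exp (W x)
  have cH : ContDiff ℝ 1 H := cP.mul (Real.contDiff_exp.comp hW1)
  let J : Fin n → E n → ℝ := fun i x => K φ (fun y => dd i W y * p y) x - dd i W x * P x
  have hF : ∀ i x, F i x = Real.exp (-W x) * dd i H x + J i x := fun i x => by
    have e : dd i H x = dd i P x * Real.exp (W x) + P x * (Real.exp (W x) * dd i W x) := by
      show fderiv ℝ (fun x => P x * Real.exp (W x)) x (bv i) = _
      rw [fderiv_fun_mul (cP.differentiable one_ne_zero x) (h.differentiable x).exp,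
        (h.differentiable x).hasFDerivAt.exp.fderiv]
      simp [dd]
      ring
    simp only [F, J]
    rw [e, hP, dd_K hφ1 hφs hp]
    have : Real.exp (-W x) * Real.exp (W x) = 1 := by rw [← Real.exp_add]; simp
    linear_combination (K (dd i φ) p x - dd i W x * K φ p x) * this
  have hJ : ∀ i x, J i x ^ 2 ≤ (b * ε) ^ 2 * K φ (fun y => p y ^ 2) x := fun i x => by
    have hb : ∀ z ∈ (Set.univ : Set (E n)), ‖fderiv ℝ (dd i W) z‖ ≤ |b| := fun z _ =>
      ContinuousLinearMap.opNorm_le_bound _ (abs_nonneg b) fun v => by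
        show ‖fderiv ℝ (fun z => fderiv ℝ W z (bv i)) z v‖ ≤ _
        rw [h.fderiv_fderiv_apply, Real.norm_eq_abs]
        simpa [bv] using h.abs_D2_le z v (bv i)
    have hlip : ∀ y, |dd i W y - dd i W x| ≤ |b| * ‖y - x‖ := fun y =>
      convex_univ.norm_image_sub_le_of_norm_fderiv_le
        (fun z _ => (contDiff_dd₁ h.smooth i).differentiable one_ne_zero z) hb (Set.mem_univ x)
        (Set.mem_univ y)
    have i1 := integrable_K hφ.continuous hφs (hpW i) x
    have i2 := integrable_K hφ.continuous hφs hp x
    have e : J i x = ∫ y, (dd i W y - dd i W x) * p y * φ (y - x) := by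
      simp only [J, hP, K]
      rw [← integral_const_mul, ← integral_sub i1 (i2.const_mul _)]
      congr 1
      ext y
      ring
    have ha : |J i x| ≤ |b| * ε * K φ (fun y => |p y|) x := by
      rw [e, K, ← integral_const_mul]
      refine (norm_integral_le_integral_norm fun y => (dd i W y - dd i W x) * p y * φ (y - x)).trans
        (integral_mono_of_nonneg (Eventually.of_forall fun y => abs_nonneg _)
        ((integrable_K hφ.continuous hφs hp.abs x).const_mul _)
        (Eventually.of_forall fun y => ?_))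
      show |(dd i W y - dd i W x) * p y * φ (y - x)| ≤ |b| * ε * (|p y| * φ (y - x))
      rw [abs_mul, abs_mul, abs_of_nonneg (h0 (y - x)), mul_assoc]
      rcases eq_or_ne (φ (y - x)) 0 with hz' | hz'
      · simp [hz']
      · exact mul_le_mul_of_nonneg_right
          ((hlip y).trans (mul_le_mul_of_nonneg_left (hε _ hz') (abs_nonneg b)))
          (mul_nonneg (abs_nonneg _) (h0 _))
    have hj := sq_K_le hφ.continuous hφs h0 h1 hp.abs (by simpa [sq_abs] using hp2) x
    simp only [sq_abs] at hj
    calc J i x ^ 2 = |J i x| ^ 2 := (sq_abs _).symm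
      _ ≤ (|b| * ε * K φ (fun y => |p y|) x) ^ 2 := pow_le_pow_left₀ (abs_nonneg _) ha 2
      _ ≤ _ := by
        rw [mul_pow, mul_pow, sq_abs, ← mul_pow]
        exact mul_le_mul_of_nonneg_left hj (sq_nonneg _)
  have hPsq : ∀ x, P x ^ 2 ≤ K φ (fun y => p y ^ 2) x :=
    sq_K_le hφ.continuous hφs h0 h1 hp hp2
  let G : E n → ℝ := fun x => χ x * H x
  have cG : ContDiff ℝ 1 G := hχ.mul cH
  have sG : HasCompactSupport G := hχs.mul_right
  let ψ : E n → ℝ := fun x => χ x * G x
  have cψ : ContDiff ℝ 1 ψ := hχ.mul cG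
  have sψ : HasCompactSupport ψ := hχs.mul_right
  have dψ : ∀ i x, dd i ψ x = 2 * χ x * dd i χ x * H x + χ x ^ 2 * dd i H x := fun i x => by
    simp only [ψ, congrFun (dd_mul hχ cG i) x]
    simp only [G, congrFun (dd_mul hχ cH i) x]
    ring
  have c0 : Continuous fun x => Real.exp (-W x) := Real.continuous_exp.comp h.continuous.neg
  have c1 : Continuous fun x => Real.exp (W x) := Real.continuous_exp.comp h.continuous
  have cK2 : Continuous (K φ fun y => p y ^ 2) := continuous_K hφ.continuous hφs hp2
  have iF : ∀ i, Integrable fun x => dd i ψ x * F i x := fun i =>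
    ((continuous_dd cψ i).mul (cF i).continuous).integrable_of_hasCompactSupport
      (hasCompactSupport_dd sψ i).mul_right
  have hzero : ∫ x, ∑ i, dd i ψ x * F i x = 0 := by
    rw [integral_finsetSum _ fun i _ => iF i]
    have : ∀ i, ∫ x, dd i ψ x * F i x = -∫ x, ψ x * dd i (F i) x := fun i => by
      have := integral_mul_fderiv_eq_neg_fderiv_mul_of_integrable (μ := volume) (f := ψ) (g := F i)
        (v := bv i) (iF i)
        ((cψ.continuous.mul (continuous_dd (cF i) i)).integrable_of_hasCompactSupport sψ.mul_right)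
        ((cψ.continuous.mul (cF i).continuous).integrable_of_hasCompactSupport sψ.mul_right)
        (fun x _ => cψ.differentiable one_ne_zero x) (fun x _ => (cF i).differentiable one_ne_zero x)
      simp only [dd] at this ⊢
      rw [this, neg_neg]
    rw [Finset.sum_congr rfl fun i _ => this i, Finset.sum_neg_distrib, ← integral_finsetSum]
    · simp [← Finset.mul_sum, hdiv]
    · exact fun i _ =>
        (cψ.continuous.mul (continuous_dd (cF i) i)).integrable_of_hasCompactSupport sψ.mul_right
  let B : E n → ℝ := fun x => gsq χ x * Real.exp (W x) * K φ (fun y => p y ^ 2) x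
  let D : E n → ℝ := fun x => χ x ^ 2 * Real.exp (W x) * K φ (fun y => p y ^ 2) x
  have iB : Integrable B := by
    refine (((continuous_finsetSum _ fun i _ => (continuous_dd hχ i).pow 2).mul c1).mul
      cK2).integrable_of_hasCompactSupport (HasCompactSupport.intro (hχs : IsCompact (tsupport χ))
        fun x hx => ?_)
    have : ∀ i, dd i χ x = 0 := fun i => image_eq_zero_of_notMem_tsupport
      fun hx' => hx (tsupport_fderiv_apply_subset ℝ (bv i) hx')
    simp [this]
  have iD : Integrable D :=
    (((hχ.continuous.pow 2).mul c1).mul cK2).integrable_of_hasCompactSupport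
      (HasCompactSupport.intro (hχs : IsCompact (tsupport χ)) fun x hx => by
        simp [D, image_eq_zero_of_notMem_tsupport hx])
  have tG : Tame G := tame_of_hasCompactSupport cG.continuous sG
  have tGd : ∀ i, Tame (dd i G) := fun i => tame_dd_of_supp cG sG i
  have tgs : Tame (gsq G) := Tame.sum _ fun i _ => (tGd i).pow 2
  have hpt : ∀ x, Real.exp (-W x) * gsq G x
      ≤ 4 * (∑ i, dd i ψ x * F i x) + (22 * B x + 8 * (n * (b * ε) ^ 2) * D x) := fun x => by
    set e := Real.exp (W x) with he
    have he0 : 0 < e := Real.exp_pos _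
    have hρ : Real.exp (-W x) = e⁻¹ := Real.exp_neg _
    have key : ∀ i, e⁻¹ * dd i G x ^ 2 ≤ 4 * (dd i ψ x * F i x)
        + 22 * (dd i χ x ^ 2 * e * P x ^ 2) + 8 * (χ x ^ 2 * e * J i x ^ 2) := fun i => by
      simp only [G, congrFun (dd_mul hχ cH i) x, dψ, hF, hρ]
      set A := χ x * dd i H x
      set L := dd i χ x * P x * e
      set M := e * (χ x * J i x)
      have h2 : (L + A) ^ 2
          ≤ 4 * ((2 * L + A) * (A + M)) + 22 * L ^ 2 + 8 * M ^ 2 := by
        nlinarith [sq_nonneg (3 / 2 * A + 2 * M + 3 * L), sq_nonneg (A + 4 * L), sq_nonneg A,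
          sq_nonneg L, sq_nonneg M, sq_nonneg (A + 2 * M), sq_nonneg (L + M)]
      have h3 := mul_le_mul_of_nonneg_left h2 (inv_pos.2 he0).le
      have i1 : H x = P x * e := rfl
      rw [i1]
      calc e⁻¹ * (dd i χ x * (P x * e) + χ x * dd i H x) ^ 2 = e⁻¹ * (L + A) ^ 2 := by ring
        _ ≤ _ := h3
        _ = _ := by
          simp only [A, L, M]
          field_simp
    simp only [gsq, hρ, Finset.mul_sum]
    refine (Finset.sum_le_sum fun i _ => key i).trans ?_
    rw [Finset.sum_add_distrib, Finset.sum_add_distrib, add_assoc]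
    refine add_le_add (by simp [Finset.mul_sum]) (add_le_add ?_ ?_)
    · simp only [B, gsq, Finset.sum_mul, Finset.mul_sum]
      exact Finset.sum_le_sum fun i _ => mul_le_mul_of_nonneg_left
        (mul_le_mul_of_nonneg_left (hPsq x) (by positivity)) (by norm_num)
    · calc ∑ i, 8 * (χ x ^ 2 * e * J i x ^ 2)
          ≤ ∑ _i : Fin n, 8 * (χ x ^ 2 * e * ((b * ε) ^ 2 * K φ (fun y => p y ^ 2) x)) :=
            Finset.sum_le_sum fun i _ => mul_le_mul_of_nonneg_left
              (mul_le_mul_of_nonneg_left (hJ i x) (by positivity)) (by norm_num)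
        _ = _ := by
          simp only [Finset.sum_const, Finset.card_univ, Fintype.card_fin, nsmul_eq_mul, D]
          ring
  have iG : Integrable fun x => Real.exp (-W x) * gsq G x := h.integrable tgs
  have iS : Integrable fun x => ∑ i, dd i ψ x * F i x := integrable_finsetSum _ fun i _ => iF i
  have hE : ∫ x, Real.exp (-W x) * gsq G x
      ≤ 22 * (∫ x, B x) + 8 * (n * (b * ε) ^ 2) * ∫ x, D x := by
    refine (integral_mono iG ((iS.const_mul 4).add
      ((iB.const_mul 22).add (iD.const_mul (8 * (n * (b * ε) ^ 2))))) hpt).trans_eq ?_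
    rw [integral_add' (iS.const_mul 4) ((iB.const_mul 22).add (iD.const_mul _)),
      integral_add' (iB.const_mul 22) (iD.const_mul _), integral_const_mul, integral_const_mul,
      integral_const_mul, hzero]
    ring
  have hvG : ex W (fun x => G x ^ 2) - ex W G ^ 2 ≤ ex W (gsq G) / a := by
    rw [div_eq_inv_mul, ← ex_const_mul]
    refine h.bl cG tG (tgs.const_mul _) fun x w => ?_
    have hlow := h.lower x w
    have hw : fderiv ℝ G x w = ∑ i, dd i G x * w i := by
      conv_lhs => rw [show w = ∑ i, w i • bv i by ext j; simp [bv, Pi.single_apply]]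
      simp [map_sum, dd, mul_comm]
    have ha := h.pos
    have hcs : (fderiv ℝ G x w) ^ 2 ≤ gsq G x * ‖w‖ ^ 2 := by
      rw [hw, EuclideanSpace.real_norm_sq_eq]
      exact Finset.sum_mul_sq_le_sq_mul_sq _ _ _
    have hne : 0 ≤ gsq G x := Finset.sum_nonneg fun i _ => sq_nonneg _
    have hm : a * (a⁻¹ * gsq G x) = gsq G x := by field_simp
    have hsum : 0 ≤ a⁻¹ * gsq G x + a * ‖w‖ ^ 2 := by positivity
    have : (2 * fderiv ℝ G x w) ^ 2 ≤ (a⁻¹ * gsq G x + a * ‖w‖ ^ 2) ^ 2 := by
      have hm2 : a⁻¹ * gsq G x * (a * ‖w‖ ^ 2) = gsq G x * ‖w‖ ^ 2 := by field_simp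
      nlinarith [sq_nonneg (a⁻¹ * gsq G x - a * ‖w‖ ^ 2)]
    have := abs_le_of_sq_le_sq' this hsum
    linarith [this.1]
  have hcov : (ex W (fun x => G x * f x) - ex W G * ex W f) ^ 2
      ≤ (ex W (fun x => G x ^ 2) - ex W G ^ 2) * (ex W (fun x => f x ^ 2) - ex W f ^ 2) := by
    have hcc := h.sq_ex_mul_le (tG.sub (Tame.const (ex W G))) (hft.sub (Tame.const (ex W f)))
    have eG := h.ex_cov tG tG
    have ef := h.ex_cov hft hft
    have eGf := h.ex_cov tG hft
    simp only [← sq] at eG ef
    rwa [eGf, eG, ef] at hcc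
  have hex : ∀ g : E n → ℝ, ex W (fun x => G x * g x) = (Zc W)⁻¹ * ∫ x, χ x * g x * P x :=
    fun g => by
      simp only [ex, smul_eq_mul, G, H]
      congr 2
      ext x
      rw [Real.exp_neg]
      field_simp
  have hex1 : ex W G = (Zc W)⁻¹ * ∫ x, χ x * P x := by simpa using hex fun _ => 1
  have hvf : 0 ≤ ex W (fun x => f x ^ 2) - ex W f ^ 2 := by
    have := h.ex_cov hft hft
    simp only [← sq] at this
    rw [← this]
    exact h.ex_nonneg fun x => sq_nonneg _
  have hfin := hcov.trans (mul_le_mul_of_nonneg_right hvG hvf)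
  rw [hex f, hex1] at hfin
  have hEx : ex W (gsq G) ≤ (Zc W)⁻¹ * (22 * (∫ x, B x) + 8 * (n * (b * ε) ^ 2) * ∫ x, D x) := by
    simp only [ex, smul_eq_mul]
    exact mul_le_mul_of_nonneg_left hE (inv_nonneg.2 hz.le)
  have hfin2 := hfin.trans (mul_le_mul_of_nonneg_right
    (div_le_div_of_nonneg_right hEx h.pos.le) hvf)
  rw [← mul_le_mul_iff_right₀ (pow_pos (inv_pos.2 hz) 2)]
  refine le_trans (le_of_eq ?_) (hfin2.trans (le_of_eq ?_))
  · ring
  · simp only [B, D]
    field_simp

/-- The cut-offs. -/
noncomputable def cut (n m : ℕ) : E n → ℝ :=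
  fun x => (⟨1, 2, one_pos, one_lt_two⟩ : ContDiffBump (0 : E n)) ((1 / ((m : ℝ) + 1)) • x)

/-- The orthogonal complement of the range of the weighted Laplacian consists of the constants. -/
theorem orth_const (h : Pinched W a b) {k : E n → ℝ} (hk : MemLp k 2 volume)
    (horth : ∀ u : E n → ℝ, ContDiff ℝ 3 u → HasCompactSupport u →
      ∫ y, k y * (Lop W u y * Real.exp (-W y / 2)) = 0) {f : E n → ℝ} (hft : Tame f) :
    ∫ y, k y * ((f y - ex W f) * Real.exp (-W y / 2)) = 0 := by
  let p : E n → ℝ := fun y => k y * Real.exp (-W y / 2)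
  have ip : ∀ {g : E n → ℝ}, Tame g → Integrable fun y => p y * g y := fun hg =>
    integrable_weight h hk hg
  have hp : Integrable p := by simpa [p] using ip (Tame.const (1 : ℝ))
  have hp2 : Integrable fun y => p y ^ 2 := integrable_weight_sq h hk
  have hpW : ∀ i, Integrable fun y => dd i W y * p y := fun i =>
    (ip (h.tame_fderiv_apply (bv i))).congr (Eventually.of_forall fun y => mul_comm _ _)
  have horth' : ∀ u : E n → ℝ, ContDiff ℝ 3 u → HasCompactSupport u →
      ∫ y, p y * Lop W u y = 0 := fun u hu hus => by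
    rw [← horth u hu hus]
    congr 1
    ext y
    show k y * Real.exp (-W y / 2) * _ = _
    ring
  set C := Zc W * (ex W (fun x => f x ^ 2) - ex W f ^ 2) / a with hC
  have c1 : Continuous fun x => Real.exp (W x) := Real.continuous_exp.comp h.continuous
  have step : ∀ χ : E n → ℝ, ContDiff ℝ 1 χ → HasCompactSupport χ →
      ((∫ y, p y * (χ y * f y)) - ex W f * ∫ y, p y * χ y) ^ 2
        ≤ C * (22 * ∫ y, gsq χ y * k y ^ 2) := fun χ hχ hχs => by
    have hd : Continuous fun x => gsq χ x * Real.exp (W x) :=
      (continuous_finsetSum _ fun i _ => (continuous_dd hχ i).pow 2).mul c1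
    have hds : HasCompactSupport fun x => gsq χ x * Real.exp (W x) :=
      HasCompactSupport.intro (hχs : IsCompact (tsupport χ)) fun x hx => by
        have : ∀ i, dd i χ x = 0 := fun i => image_eq_zero_of_notMem_tsupport
          fun hx' => hx (tsupport_fderiv_apply_subset ℝ (bv i) hx')
        simp [gsq, this]
    have l1 := tendsto_K (hχ.continuous.mul hft.1) hχs.mul_right hp
    have l2 := tendsto_K hχ.continuous hχs hp
    have l3 := tendsto_K hd hds hp2
    have l4 := tendsto_K ((hχ.continuous.pow 2).mul c1)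
      (HasCompactSupport.intro (hχs : IsCompact (tsupport χ)) fun x hx => by
        simp [image_eq_zero_of_notMem_tsupport hx]) hp2
    have l5 : Tendsto (fun m : ℕ => 8 * (n * (b * (1 / ((m : ℝ) + 1))) ^ 2)) atTop (𝓝 0) := by
      simpa using (((tendsto_one_div_add_atTop_nhds_zero_nat.const_mul b).pow 2).const_mul
        (n : ℝ)).const_mul 8
    have key : ∀ m, _ ≤ _ := fun m => test_bound h (φ := (mol n m).normed volume)
      (ε := 1 / ((m : ℝ) + 1)) (mol n m).contDiff_normed
      (mol n m).hasCompactSupport_normed (mol n m).nonneg_normed (mol n m).integral_normed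
      (fun z hz => by
        have hz' : z ∈ Function.support ((mol n m).normed volume) := hz
        rw [(mol n m).support_normed_eq, Metric.mem_ball, dist_zero_right] at hz'
        exact hz'.le) hχ hχs hp hpW hp2 horth' hft
    have hlim := le_of_tendsto_of_tendsto' ((l1.sub (l2.const_mul (ex W f))).pow 2)
      (((l3.const_mul 22).add (l5.mul l4)).const_mul C) key
    simp only [zero_mul, add_zero] at hlim
    refine hlim.trans_eq ?_
    congr 2
    congr 1
    ext y
    show (k y * Real.exp (-W y / 2)) ^ 2 * (gsq χ y * Real.exp (W y)) = _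
    rw [mul_pow, sq (Real.exp _), ← Real.exp_add]
    rw [show -W y / 2 + -W y / 2 = -W y by ring, Real.exp_neg]
    field_simp
  let β : ContDiffBump (0 : E n) := ⟨1, 2, one_pos, one_lt_two⟩
  obtain ⟨L, hL⟩ := (β.contDiff (n := 1)).continuous_fderiv one_ne_zero
    |>.bounded_above_of_compact_support (β.hasCompactSupport.fderiv ℝ)
  have hcd : ∀ m, ContDiff ℝ 1 (cut n m) := fun m =>
    β.contDiff.comp (contDiff_const_smul _)
  have hcs : ∀ m, HasCompactSupport (cut n m) := fun m =>
    β.hasCompactSupport.comp_smul (by positivity)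
  have hgs : ∀ m x, gsq (cut n m) x ≤ n * (1 / ((m : ℝ) + 1) * L) ^ 2 := fun m x => by
    have hd : ∀ i, dd i (cut n m) x
        = 1 / ((m : ℝ) + 1) * fderiv ℝ β ((1 / ((m : ℝ) + 1)) • x) (bv i) := fun i => by
      show fderiv ℝ (fun x => β ((1 / ((m : ℝ) + 1)) • x)) x (bv i) = _
      rw [fderiv_comp_smul]
      rfl
    calc gsq (cut n m) x ≤ ∑ _i : Fin n, (1 / ((m : ℝ) + 1) * L) ^ 2 :=
          Finset.sum_le_sum fun i _ => by
            rw [hd i, ← sq_abs, abs_mul, abs_of_pos (by positivity : (0 : ℝ) < 1 / ((m : ℝ) + 1))]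
            refine pow_le_pow_left₀ (by positivity) (mul_le_mul_of_nonneg_left ?_ (by positivity)) 2
            refine ((fderiv ℝ β _).le_opNorm (bv i)).trans ?_
            simpa [bv] using hL _
      _ = _ := by simp
  have hlim : ∀ {g : E n → ℝ}, Tame g →
      Tendsto (fun m => ∫ y, p y * (cut n m y * g y)) atTop (𝓝 (∫ y, p y * g y)) := fun {g} hg => by
    refine tendsto_integral_of_dominated_convergence (fun y => ‖p y * g y‖)
      (fun m => hp.1.mul ((hcd m).continuous.mul hg.1).aestronglyMeasurable) (ip hg).norm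
      (fun m => Eventually.of_forall fun y => ?_) (Eventually.of_forall fun y => ?_)
    · rw [norm_mul (p y), norm_mul (cut n m y), norm_mul (p y)]
      exact mul_le_mul_of_nonneg_left (mul_le_of_le_one_left (norm_nonneg _)
        ((Real.norm_of_nonneg (β.nonneg : 0 ≤ cut n m y)).trans_le β.le_one)) (norm_nonneg _)
    · refine tendsto_const_nhds.congr' ?_
      filter_upwards [eventually_ge_atTop ⌈‖y‖⌉₊] with m hm
      have : cut n m y = 1 := β.one_of_mem_closedBall (by
        rw [Metric.mem_closedBall, dist_zero_right, norm_smul,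
          Real.norm_of_nonneg (by positivity), one_div_mul_eq_div, div_le_iff₀ (by positivity)]
        have := (Nat.le_ceil ‖y‖).trans (Nat.cast_le.2 hm)
        simp only [β]
        linarith)
      rw [this, one_mul]
  have hK : Integrable fun y => k y ^ 2 := hk.integrable_sq
  have hbd : ∀ m, ((∫ y, p y * (cut n m y * f y)) - ex W f * ∫ y, p y * cut n m y) ^ 2
      ≤ C * (22 * ((n * (1 / ((m : ℝ) + 1) * L) ^ 2) * ∫ y, k y ^ 2)) := fun m => by
    have hC0 : 0 ≤ C := by
      have := h.ex_cov hft hft
      simp only [← sq] at this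
      rw [hC, ← this]
      exact div_nonneg (mul_nonneg h.zc_pos.le (h.ex_nonneg fun x => sq_nonneg _)) h.pos.le
    refine (step _ (hcd m) (hcs m)).trans (mul_le_mul_of_nonneg_left ?_ hC0)
    rw [← integral_const_mul (n * (1 / ((m : ℝ) + 1) * L) ^ 2)]
    refine mul_le_mul_of_nonneg_left (integral_mono_of_nonneg
      (Eventually.of_forall fun y => mul_nonneg (Finset.sum_nonneg fun i _ => sq_nonneg _)
        (sq_nonneg _)) (hK.const_mul _)
      (Eventually.of_forall fun y => mul_le_mul_of_nonneg_right (hgs m y) (sq_nonneg _)))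
      (by norm_num)
  have l1 : Tendsto (fun m => ∫ y, p y * cut n m y) atTop (𝓝 (∫ y, p y)) := by
    simpa using hlim (Tame.const (1 : ℝ))
  have l2 : Tendsto (fun m : ℕ => C * (22 * ((n * (1 / ((m : ℝ) + 1) * L) ^ 2) * ∫ y, k y ^ 2)))
      atTop (𝓝 0) := by
    simpa using ((((((tendsto_one_div_add_atTop_nhds_zero_nat.mul_const L).pow 2).const_mul
      (n : ℝ)).mul_const (∫ y, k y ^ 2)).const_mul 22).const_mul C)
  have h0 := pow_eq_zero_iff two_ne_zero |>.1 (le_antisymm
    (le_of_tendsto_of_tendsto' (((hlim hft).sub (l1.const_mul (ex W f))).pow 2) l2 hbd)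
    (sq_nonneg _))
  calc ∫ y, k y * ((f y - ex W f) * Real.exp (-W y / 2))
      = ∫ y, (p y * f y - ex W f * p y) := by congr 1; ext y; show _ = k y * _ * _ - _; ring
    _ = 0 := by rw [integral_sub (ip hft) (hp.const_mul _), integral_const_mul, h0]

end Vale.P245.Cube.Lich
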