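import Vale.Agent.P245.Cube.Lich.Dense

/-! # From test functions to the Poincaré inequality -/

namespace Vale.P245.Cube.Lich

open MeasureTheory Vale.P254.Skew Filter Topology
open scoped RealInnerProductSpace ENNReal

variable {n : ℕ} {W : E n → ℝ} {a b : ℝ}

theorem dd_add {u v : E n → ℝ} (hu : ContDiff ℝ 1 u) (hv : ContDiff ℝ 1 v) (i : Fin n) :
    dd i (fun x => u x + v x) = fun x => dd i u x + dd i v x := by
  funext x
  simp [dd, fderiv_fun_add (hu.differentiable one_ne_zero x) (hv.differentiable one_ne_zero x)]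

theorem dd_const_mul (c : ℝ) {u : E n → ℝ} (hu : ContDiff ℝ 1 u) (i : Fin n) :
    dd i (fun x => c * u x) = fun x => c * dd i u x := by
  funext x
  simp [dd, fderiv_const_mul (hu.differentiable one_ne_zero x)]

theorem dd_const (c : ℝ) (i : Fin n) : dd i (fun _ : E n => c) = fun _ => 0 := by
  funext x
  simp [dd]

theorem dd_sub_const (c : ℝ) (u : E n → ℝ) (i : Fin n) : dd i (fun x => u x - c) = dd i u := by
  funext x
  simp [dd, fderiv_sub_const]

theorem Lop_add {u v : E n → ℝ} (hu : ContDiff ℝ 2 u) (hv : ContDiff ℝ 2 v) (x : E n) :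
    Lop W (fun y => u y + v y) x = Lop W u x + Lop W v x := by
  simp only [Lop, ← Finset.sum_add_distrib]
  refine Finset.sum_congr rfl fun j _ => ?_
  rw [dd_add (hu.of_le (by norm_num)) (hv.of_le (by norm_num)),
    dd_add (contDiff_dd₁ hu j) (contDiff_dd₁ hv j)]
  ring

theorem Lop_const_mul (c : ℝ) {u : E n → ℝ} (hu : ContDiff ℝ 2 u) (x : E n) :
    Lop W (fun y => c * u y) x = c * Lop W u x := by
  simp only [Lop, Finset.mul_sum]
  refine Finset.sum_congr rfl fun j _ => ?_
  rw [dd_const_mul c (hu.of_le (by norm_num)), dd_const_mul c (contDiff_dd₁ hu j)]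
  ring

/-- The range of the weighted Laplacian, carried to Lebesgue `L²`. -/
noncomputable def ran (W : E n → ℝ) : Submodule ℝ (Lp ℝ 2 (volume : Measure (E n))) where
  carrier := {v | ∃ u : E n → ℝ, ContDiff ℝ 3 u ∧ HasCompactSupport u ∧
    (v : E n → ℝ) =ᵐ[volume] fun x => Lop W u x * Real.exp (-W x / 2)}
  zero_mem' := ⟨fun _ => 0, contDiff_const, HasCompactSupport.zero, by
    filter_upwards [Lp.coeFn_zero ℝ 2 (volume : Measure (E n))] with x hx
    rw [hx]
    simp [Lop, dd_const]⟩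
  add_mem' := by
    rintro v w ⟨u, hu, hus, hv⟩ ⟨u', hu', hus', hw⟩
    refine ⟨fun x => u x + u' x, hu.add hu', hus.add hus', ?_⟩
    filter_upwards [Lp.coeFn_add v w, hv, hw] with x h1 h2 h3
    rw [h1, Pi.add_apply, h2, h3, Lop_add (hu.of_le (by norm_num)) (hu'.of_le (by norm_num))]
    ring
  smul_mem' := by
    rintro c v ⟨u, hu, hus, hv⟩
    refine ⟨fun x => c * u x, contDiff_const.mul hu, hus.mul_left, ?_⟩
    filter_upwards [Lp.coeFn_smul c v, hv] with x h1 h2
    rw [h1, Pi.smul_apply, h2, Lop_const_mul c (hu.of_le (by norm_num)), smul_eq_mul]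
    ring

/-- The range of the weighted Laplacian is dense among centred functions. -/
theorem exists_approx (h : Pinched W a b) {g : E n → ℝ} (hg : Tame g) {δ : ℝ} (hδ : 0 < δ) :
    ∃ u : E n → ℝ, ContDiff ℝ 3 u ∧ HasCompactSupport u ∧
      ex W (fun x => (g x - ex W g - Lop W u x) ^ 2) ≤ δ := by
  have hz := h.zc_pos
  have hT := memLp_half h (hg.sub (Tame.const (ex W g)))
  set G := hT.toLp _ with hG
  have hperp : ∀ k ∈ (ran W)ᗮ, ⟪k, G⟫ = 0 := fun k hk => by
    have horth : ∀ u : E n → ℝ, ContDiff ℝ 3 u → HasCompactSupport u →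
        ∫ y, k y * (Lop W u y * Real.exp (-W y / 2)) = 0 := fun u hu hus => by
      have hm := memLp_half h (tame_Lop h (hu.of_le (by norm_num)) hus)
      have := Submodule.inner_left_of_mem_orthogonal (K := ran W) (u := hm.toLp _)
        ⟨u, hu, hus, hm.coeFn_toLp⟩ hk
      rw [L2.inner_def] at this
      rw [← this]
      refine integral_congr_ae ?_
      filter_upwards [hm.coeFn_toLp] with x hx
      rw [hx, RCLike.inner_apply, conj_trivial]
      ring
    rw [L2.inner_def, ← orth_const h (Lp.memLp k) horth hg]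
    refine integral_congr_ae ?_
    filter_upwards [hT.coeFn_toLp] with x hx
    rw [← hG] at hx
    rw [hx, RCLike.inner_apply, conj_trivial]
    ring
  have hmem : G ∈ closure (ran W : Set (Lp ℝ 2 (volume : Measure (E n)))) := by
    rw [← Submodule.topologicalClosure_coe, ← Submodule.orthogonal_orthogonal_eq_closure]
    exact (Submodule.mem_orthogonal _ _).2 hperp
  obtain ⟨v, ⟨u, hu, hus, hv⟩, hd⟩ := Metric.mem_closure_iff.1 hmem _
    (Real.sqrt_pos.2 (mul_pos hδ hz))
  refine ⟨u, hu, hus, ?_⟩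
  have e : ∫ x, Real.exp (-W x) * (g x - ex W g - Lop W u x) ^ 2 = ‖G - v‖ ^ 2 := by
    rw [← real_inner_self_eq_norm_sq, L2.inner_def]
    refine integral_congr_ae ?_
    filter_upwards [Lp.coeFn_sub G v, hv, hT.coeFn_toLp] with x h1 h2 h3
    rw [← hG] at h3
    rw [h1, Pi.sub_apply, h2, h3, real_inner_self_eq_norm_sq, Real.norm_eq_abs, sq_abs,
      ← sub_mul, mul_pow, sq (Real.exp _), ← Real.exp_add]
    ring_nf
  rw [dist_eq_norm, Real.lt_sqrt (norm_nonneg _)] at hd
  simp only [ex, smul_eq_mul] at e ⊢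
  rw [e, inv_mul_le_iff₀ hz]
  linarith

theorem sq_ex_sum_mul_le (h : Pinched W a b) {A B : Fin n → E n → ℝ} (hA : ∀ i, Tame (A i))
    (hB : ∀ i, Tame (B i)) :
    ex W (fun x => ∑ i, A i x * B i x) ^ 2
      ≤ ex W (fun x => ∑ i, A i x ^ 2) * ex W (fun x => ∑ i, B i x ^ 2) := by
  have tA : Tame fun x => ∑ i, A i x ^ 2 := Tame.sum _ fun i _ => (hA i).pow 2
  have tB : Tame fun x => ∑ i, B i x ^ 2 := Tame.sum _ fun i _ => (hB i).pow 2
  have tAB : Tame fun x => ∑ i, A i x * B i x := Tame.sum _ fun i _ => (hA i).mul (hB i)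
  have key : ∀ t : ℝ, 0 ≤ ex W (fun x => ∑ i, B i x ^ 2) * (t * t)
      + 2 * ex W (fun x => ∑ i, A i x * B i x) * t + ex W (fun x => ∑ i, A i x ^ 2) := fun t => by
    have h0 := h.ex_nonneg (f := fun x => ∑ i, (A i x + t * B i x) ^ 2)
      fun x => Finset.sum_nonneg fun i _ => sq_nonneg _
    have e : ∀ x, ∑ i, (A i x + t * B i x) ^ 2 = (∑ i, A i x ^ 2)
        + ((2 * t) * (∑ i, A i x * B i x) + (t * t) * ∑ i, B i x ^ 2) := fun x => by
      simp only [Finset.mul_sum, ← Finset.sum_add_distrib]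
      exact Finset.sum_congr rfl fun i _ => by ring
    rw [ex_congr e, h.ex_add tA ((tAB.const_mul _).add (tB.const_mul _)),
      h.ex_add (tAB.const_mul _) (tB.const_mul _), ex_const_mul, ex_const_mul] at h0
    linarith
  have := discrim_le_zero key
  simp only [discrim] at this
  nlinarith

/-- A Poincaré inequality on test functions implies it in general. -/
theorem var_le_of_tests (h : Pinched W a b) {C : ℝ} (hC : 0 ≤ C)
    (hc : ∀ u : E n → ℝ, ContDiff ℝ 3 u → HasCompactSupport u →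
      ex W (gsq u) ≤ C * ex W (fun x => Lop W u x ^ 2))
    {g : E n → ℝ} (hg : ContDiff ℝ 1 g) (hgt : Tame g) (hgd : ∀ i, Tame (dd i g)) :
    ex W (fun x => g x ^ 2) - ex W g ^ 2 ≤ C * ex W (gsq g) := by
  have t0 : Tame fun x => g x - ex W g := hgt.sub (Tame.const _)
  set V := ex W (fun x => (g x - ex W g) ^ 2) with hVdef
  have hV : V = ex W (fun x => g x ^ 2) - ex W g ^ 2 := by
    simpa only [← sq] using h.ex_cov hgt hgt
  rw [← hV]
  have hD : 0 ≤ ex W (gsq g) := h.ex_nonneg fun x => Finset.sum_nonneg fun i _ => sq_nonneg _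
  choose u hu hus happ using fun m : ℕ =>
    exists_approx h hgt (δ := 1 / ((m : ℝ) + 1)) (by positivity)
  let r : ℕ → E n → ℝ := fun m x => g x - ex W g - Lop W (u m) x
  have tL : ∀ m, Tame (Lop W (u m)) := fun m => tame_Lop h ((hu m).of_le (by norm_num)) (hus m)
  have tr : ∀ m, Tame (r m) := fun m => t0.sub (tL m)
  let x : ℕ → ℝ := fun m => ex W fun y => (g y - ex W g) * r m y
  let R : ℕ → ℝ := fun m => ex W fun y => r m y ^ 2
  have main : ∀ m, (V - x m) ^ 2 ≤ ex W (gsq g) * C * (V - 2 * x m + R m) := fun m => by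
    have e1 : ex W (fun y => (g y - ex W g) * Lop W (u m) y) = V - x m := by
      rw [hVdef, ← h.ex_sub (t0.pow 2) (t0.mul (tr m))]
      exact ex_congr fun y => by simp only [r]; ring
    have e2 : ex W (fun y => Lop W (u m) y ^ 2) = V - 2 * x m + R m := by
      rw [hVdef, ← ex_const_mul, ← h.ex_sub (t0.pow 2) ((t0.mul (tr m)).const_mul 2),
        ← h.ex_add ((t0.pow 2).sub ((t0.mul (tr m)).const_mul 2)) ((tr m).pow 2)]
      exact ex_congr fun y => by simp only [r]; ring
    have hi := ibp_Lop h (hg.sub contDiff_const) t0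
      (fun i => (dd_sub_const _ g i).symm ▸ hgd i) ((hu m).of_le (by norm_num)) (hus m)
    rw [e1] at hi
    rw [hi, neg_sq, mul_assoc, ← e2]
    refine (sq_ex_sum_mul_le h (fun i => (dd_sub_const _ g i).symm ▸ hgd i)
      fun i => tame_dd_of_supp ((hu m).of_le (by norm_num)) (hus m) i).trans
      (mul_le_mul (le_of_eq (ex_congr fun y => by simp only [gsq, dd_sub_const]))
        (hc _ (hu m) (hus m)) (h.ex_nonneg fun y => Finset.sum_nonneg fun i _ => sq_nonneg _) hD)
  have hR : Tendsto R atTop (𝓝 0) := squeeze_zero (fun m => h.ex_nonneg fun y => sq_nonneg _)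
    happ tendsto_one_div_add_atTop_nhds_zero_nat
  have hx : Tendsto x atTop (𝓝 0) := squeeze_zero_norm (a := fun m => Real.sqrt (V * R m)) (fun m => by
    rw [Real.norm_eq_abs]
    exact Real.abs_le_sqrt (h.sq_ex_mul_le t0 (tr m))) (by
      simpa using (hR.const_mul V).sqrt)
  have hlim := le_of_tendsto_of_tendsto' ((tendsto_const_nhds.sub hx).pow 2)
    (((tendsto_const_nhds.sub (hx.const_mul 2)).add hR).const_mul (ex W (gsq g) * C)) main
  simp only [sub_zero, mul_zero, add_zero] at hlim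
  rcases (h.ex_nonneg fun y => sq_nonneg (g y - ex W g)).eq_or_lt with h0 | h0
  · rw [← hVdef] at h0
    rw [← h0]
    positivity
  · rw [← hVdef] at h0
    nlinarith

end Vale.P245.Cube.Lich
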